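import Crest.Agent.R17.Iface

/-!
# Row 27, part A: the abstract structure (owner helper12).  DO NOT EDIT without telling helper12.

`R` is a PID (in the model `R = 𝓞 F[1/M]`, see `R27/G/Defs.lean` and `R27/Model.lean`).  Three layers:
* `Dt R`  : data (`Pr R` = one generator of every nonzero ideal, closed under products; additive character `eQ`,
  sextic symbol `sx`, finite class group `Cl R` with `cls`, angle `al`);
* `Ar R`  : the arithmetic axioms;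
* `Abs R` : ideal count and Poisson summation over ideals with the weight `W`.
All names and shapes are those of `R17/Defs.lean`.  Use `namespace Crest.Agent.R27.Ab` (or `open` it) and
`open Crest.Agent.R17 (LN LNt EntBdd gth)`; do not open all of `Crest.Agent.R17`.
`variable {R : Type} [CommRing R] [IsDomain R] [IsPrincipalIdealRing R] [Abs R]`.
-/

set_option autoImplicit false

namespace Crest.Agent.R27.Ab

open Crest.Agent.R17 (LN LNt EntBdd gth)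
open scoped ComplexConjugate Classical

section Ring
variable {R : Type} [CommRing R]

/-- the norm `|R / n|` as a natural number -/
noncomputable def nN (n : R) : ℕ := Nat.card (R ⧸ Ideal.span {n})

/-- the norm as a real number -/
noncomputable def nm (n : R) : ℝ := (nN n : ℝ)

/-- complete sum over residues modulo `Q` -/
noncomputable def rsum (Q : R) (f : R → ℂ) : ℂ :=
  ∑ᶠ y : R ⧸ Ideal.span {Q}, f (Quotient.out y)

/-- periodic modulo `Q` -/
def Per (Q : R) (f : R → ℂ) : Prop := ∀ a b, Q ∣ a - b → f a = f b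

/-- invariant under the units -/
def UInv (f : R → ℂ) : Prop := ∀ u a : R, IsUnit u → f (u * a) = f a

/-- the principal character modulo `q` -/
noncomputable def one (q : R) (n : R) : ℂ := if IsCoprime n q then 1 else 0

end Ring

/-- the data -/
class Dt (R : Type) [CommRing R] where
  pr : Submonoid R
  eQ : R → R → ℂ
  sx : R → R → ℂ
  al : R → ℂ
  C : Type
  [grp : CommGroup C]
  cls : R → C

section Defs
variable (R : Type) [CommRing R] [Dt R]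

/-- the chosen generators of the nonzero ideals -/
def Pr : Submonoid R := Dt.pr

/-- the class group -/
def Cl : Type := Dt.C R

instance : CommGroup (Cl R) := Dt.grp

variable {R}

/-- primary -/
def Prim (n : R) : Prop := n ∈ Pr R

/-- `ψ(y / c)` -/
def eQ (y c : R) : ℂ := Dt.eQ y c

/-- `sx u n = (u / n)₆ = χ_n(u)` -/
def sx (u n : R) : ℂ := Dt.sx u n

/-- `(u / n)₃` -/
def cb (u n : R) : ℂ := sx u n ^ 2

/-- the angle (a Hecke character of infinite order) -/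
def al (n : R) : ℂ := Dt.al n

/-- the class of a nonzero element -/
def cls (n : R) : Cl R := Dt.cls n

/-- finite Fourier transform modulo `Q` -/
noncomputable def FT (Q : R) (Ψ : R → ℂ) (h : R) : ℂ := rsum Q fun y => Ψ y * eQ (h * y) Q

/-- Gauss sum `g_j(m; c) = ∑_{y mod c} χ_c(y)^j ψ(m y / c)` -/
noncomputable def gs (j : ℕ) (m c : R) : ℂ := FT c (fun y => sx y c ^ j) m

/-- normalised cubic Gauss sum -/
noncomputable def g3 (c : R) : ℂ := FT c (fun y => cb y c) 1 / (Real.sqrt (nm c) : ℂ)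

/-- normalised sextic Gauss sum -/
noncomputable def gt (m : R) : ℂ := gs 1 1 m / (Real.sqrt (nm m) : ℂ)

/-- normalised quadratic Gauss sum -/
noncomputable def gam (c : R) : ℂ := rsum c (fun y => eQ (y ^ 2) c) / (Real.sqrt (nm c) : ℂ)

/-- the theta coefficient: `tau0 (c b³) = conj (g3 c) · √(N b)` for primary squarefree `c` and primary `b`,
and `0` on everything else -/
noncomputable def tau0 (n : R) : ℂ :=
  if h : ∃ p : R × R, Prim p.1 ∧ Prim p.2 ∧ Squarefree p.1 ∧ n = p.1 * p.2 ^ 3 then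
    conj (g3 h.choose.1) * (Real.sqrt (nm h.choose.2) : ℂ)
  else 0

/-- the units that no symbol sees -/
def U1 (u : R) : Prop := IsUnit u ∧ ∀ b : R, b ≠ 0 → sx u b = 1

/-- the zeta function of `R` (for `1 < re s`) -/
noncomputable def zR (R : Type) [CommRing R] [Dt R] (s : ℂ) : ℂ := ∑' n : Pr R, (nm (n : R) : ℂ) ^ (-s)

/-- smooth theta sum of row `k`, twisted by the class function `ρ` -/
noncomputable def TT (ρ : Cl R → ℂ) (a X t : ℝ) (k : R) : ℂ :=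
  ∑' n : Pr R, tau0 (n : R) * al (n : R) * ρ (cls (n : R)) * conj (sx k n) * LN a X t (nm (n : R))

end Defs

/-- the Möbius function of `R` -/
noncomputable def mu {R : Type} [CommRing R] [IsDomain R] [IsPrincipalIdealRing R] (n : R) : ℂ :=
  if Squarefree n then (-1) ^ Multiset.card (UniqueFactorizationMonoid.factors n) else 0

/-- the arithmetic axioms -/
class Ar (R : Type) [CommRing R] extends Dt R where
  fin : ∀ n : R, n ≠ 0 → Finite (R ⧸ Ideal.span {n})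
  inf : Infinite R
  six : IsUnit (6 : R)
  pr_ne : ∀ n : R, Prim n → n ≠ 0
  pr_ex : ∀ a : R, a ≠ 0 → ∃ n, Prim n ∧ Associated a n
  pr_uniq : ∀ m n : R, Prim m → Prim n → Associated m n → m = n
  eQ_add : ∀ y y' c : R, eQ (y + y') c = eQ y c * eQ y' c
  eQ_norm : ∀ y c : R, ‖eQ y c‖ = 1
  eQ_mul : ∀ y c a : R, a ≠ 0 → eQ (y * a) (c * a) = eQ y c
  eQ_one : ∀ y : R, eQ y 1 = 1
  eQ_dual : ∀ h c : R, c ≠ 0 → (∀ y, eQ (h * y) c = 1) → c ∣ h
  sx_zero : ∀ u : R, sx u 0 = 0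
  sx_mul_left : ∀ u w n : R, sx (u * w) n = sx u n * sx w n
  sx_mul_right : ∀ u m n : R, sx u (m * n) = sx u m * sx u n
  sx_congr : ∀ u w n : R, n ∣ u - w → sx u n = sx w n
  sx_pow_six : ∀ u n : R, n ≠ 0 → sx u n ^ 6 = if IsCoprime u n then 1 else 0
  sx_prim : ∀ p : R, Prime p → ∃ u, IsPrimitiveRoot (sx u p) 6
  finC : Finite (Cl R)
  cls_mul : ∀ a b : R, a ≠ 0 → b ≠ 0 → cls (a * b) = cls a * cls b
  /-- the Hilbert symbol at the inverted primes -/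
  hs : Cl R → Cl R → ℂ
  hs_mul_left : ∀ x y z, hs (x * y) z = hs x z * hs y z
  hs_mul_right : ∀ x y z, hs x (y * z) = hs x y * hs x z
  hs_pow_six : ∀ x y, hs x y ^ 6 = 1
  /-- reciprocity for ALL nonzero elements (units included; both sides vanish unless `a`, `b` are coprime) -/
  recip : ∀ a b : R, a ≠ 0 → b ≠ 0 → sx a b = hs (cls a) (cls b) * sx b a
  hs_diag : ∀ a : R, a ≠ 0 → hs (cls a) (cls a) = sx (-1) a
  al_mul : ∀ a b : R, a ≠ 0 → b ≠ 0 → al (a * b) = al a * al b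
  al_norm : ∀ a : R, a ≠ 0 → ‖al a‖ = 1
  al_unit : ∀ u : R, IsUnit u → al u = 1
  al_zero : al (0 : R) = 0
  /-- the cubic Jacobi sum -/
  jac : ∀ p : R, Prime p → rsum p (fun x => cb x p * cb (1 - x) p) = -al p * (Real.sqrt (nm p) : ℂ)
  gam_cls : ∀ a b : R, a ≠ 0 → b ≠ 0 → cls a = cls b → gam a = gam b

noncomputable instance {R : Type} [CommRing R] [Ar R] : Fintype (Cl R) := @Fintype.ofFinite _ Ar.finC

/-- the Hilbert symbol on classes -/
def hs {R : Type} [CommRing R] [Ar R] (x y : Cl R) : ℂ := Ar.hs x y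

/-- `W`, `w₀` are Poisson weights for `R` -/
structure IsW (R : Type) [CommRing R] [Dt R] (W : ℝ → ℝ) (w₀ : ℝ) : Prop where
  w_pos : 0 < w₀
  nonneg : ∀ y, 0 ≤ W y
  cont : ContinuousOn W (Set.Ioi 0)
  lower : ∃ c : ℝ, 0 < c ∧ ∀ y, 0 < y → y ≤ 1 → c ≤ W y
  upper : ∀ σ : ℝ, 0 < σ → ∃ C : ℝ, ∀ y, 0 < y → W y ≤ C * y ^ (-σ)
  mel : ∀ σ : ℝ, 0 < σ → ∃ (C : ℝ) (w : ℝ → ℂ), Continuous w ∧ (∀ τ, ‖w τ‖ ≤ C * Real.exp (-|τ|)) ∧
    ∀ y : ℝ, 0 < y → (W y : ℂ) = ∫ τ : ℝ, w τ * (y : ℂ) ^ (-((σ : ℂ) + τ * Complex.I))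
  mel_lower : ∀ σ₁ σ₂ : ℝ, 0 < σ₁ → ∃ b : ℝ, ∀ s : ℂ, σ₁ ≤ s.re → s.re ≤ σ₂ →
    Real.exp (-(b * (1 + |s.im|))) ≤ ‖mellin (fun y => (W y : ℂ)) s‖
  poisson : ∀ (Q : R) (Ψ : R → ℂ) (K : ℝ), Q ≠ 0 → Per Q Ψ → UInv Ψ → 0 < K →
    w₀ * Ψ 0 + ∑' k : Pr R, Ψ k * W (nm (k : R) / K) =
      (K / nm Q : ℝ) * (w₀ * FT Q Ψ 0 + ∑' h : Pr R, FT Q Ψ h * W (nm (h : R) / (nm Q / K)))

/-- the number of ideals of norm at most `X` is at most `C X` -/
def Count (R : Type) [CommRing R] [Dt R] : Prop :=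
  ∃ C : ℝ, ∀ (X : ℝ) (B : Finset R), 1 ≤ X → (∀ n ∈ B, Prim n ∧ nm n ≤ X) → (B.card : ℝ) ≤ C * X

/-- the full structure -/
class Abs (R : Type) [CommRing R] extends Ar R where
  W : ℝ → ℝ
  w₀ : ℝ
  isW : IsW R W w₀
  count : Count R

/-- the row weight of size `K` (supported on `0` and the primary elements) -/
noncomputable def gw {R : Type} [CommRing R] [Abs R] (K : ℝ) (k : R) : ℝ :=
  if k = 0 then Abs.w₀ R else if Prim k then Abs.W R (nm k / K) else 0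

/-- Möbius smooth sum -/
noncomputable def MS {R : Type} [CommRing R] [IsDomain R] [IsPrincipalIdealRing R] [Dt R]
    (ψ : R → ℂ) (a Y t : ℝ) : ℂ := ∑' n : Pr R, mu (n : R) * ψ n * LN a Y t (nm (n : R))

/-! ## Block statements -/

section St
variable (R : Type) [CommRing R]

/-- THETA (helper14): the functional equation of the cubic theta series, twisted additively modulo `c`. -/
def StTheta [Dt R] : Prop :=
  ∃ (r : ℕ) (C : ℝ) (I J : Type) (_ : Finite J) (ν : I → ℝ) (ε : I → Rˣ), 0 < r ∧ 0 < C ∧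
    (∀ i, 1 / C ≤ ν i) ∧ (∀ d : ℝ, 0 < d → Summable fun i => ν i ^ (-d)) ∧
    ∀ x : Cl R, ∃ (κ : R → J) (β : J → I → R → ℂ),
      (∀ j i l, ‖β j i l‖ ≤ C * Real.sqrt (ν i) * ‖tau0 l‖) ∧
      ∀ (c : R) (Φ Φ' : R → ℂ), Prim c → Per c Φ → Per c Φ' →
        (∀ a, ¬ IsCoprime a c → Φ a = 0) → (∀ a, ¬ IsCoprime a c → Φ' a = 0) →
        (∀ u a, U1 u → Φ (u * a) = Φ a) → (∀ a d, c ∣ a * d - 1 → Φ' d = Φ a * cb a c) →
        ∃ (e : ℂ) (Λ Λ' : ℂ → ℂ), ‖e‖ = 1 ∧ EntBdd Λ ∧ EntBdd Λ' ∧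
          (∀ s : ℂ, 2 < s.re → Λ s = gth s ^ r * ∑' n : Pr R,
            if cls (n : R) = x then tau0 (n : R) * al (n : R) * FT c Φ (-n) * (nm (n : R) : ℂ) ^ (-s) else 0) ∧
          (∀ s : ℂ, 2 < s.re → Λ' s = gth s ^ r * ∑' p : I × Pr R,
            β (κ c) p.1 p.2 * FT c Φ' (ε p.1 * p.2) * ((ν p.1 * nm (p.2 : R) : ℝ) : ℂ) ^ (-s)) ∧
          ∀ s : ℂ, Λ s = e * (nm c : ℂ) ^ (1 - 2 * s) * Λ' (1 - s)

/-- primary squarefree of norm at most `X` -/
def Sq {R : Type} [CommRing R] [Dt R] (X : ℝ) (n : R) : Prop := Prim n ∧ Squarefree n ∧ nm n ≤ X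

/-- E (helper57): the quadratic large sieve. -/
def StE [Dt R] : Prop :=
  ∀ ε : ℝ, 0 < ε → ∃ C : ℝ, ∀ (K L : ℝ) (A B : Finset R) (a : R → ℂ), 1 ≤ K → 1 ≤ L →
    (∀ k ∈ A, Sq K k) → (∀ l ∈ B, Sq L l) →
    ∑ k ∈ A, ‖∑ l ∈ B, a l * sx l k ^ 3‖ ^ 2 ≤ C * (K * L) ^ ε * (K + L) * ∑ l ∈ B, ‖a l‖ ^ 2

/-- F (helper72): energy of the theta sums. -/
def StF [Dt R] : Prop :=
  ∀ a ε : ℝ, 0 < a → 0 < ε → ∃ C : ℝ, ∀ (ρ : Cl R → ℂ) (Z K X t : ℝ) (A : Finset R),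
    (∀ x, ‖ρ x‖ ≤ 1) → 1 ≤ K → K ≤ Z → Z⁻¹ ≤ X → X ≤ Z → (∀ k ∈ A, Prim k ∧ nm k ≤ K) →
    ∑ k ∈ A, ‖TT ρ a X t k‖ ^ 2 ≤ C * Z ^ ε * (1 + |t|) ^ C * (X * K + K ^ 2)

/-- MAIN (helper11): `1 / ζ_R` continues to `re s > 11/12`. -/
def StZF [Dt R] : Prop :=
  ∃ G : ℂ → ℂ, DifferentiableOn ℂ G {s | 11 / 12 < s.re} ∧ ∀ s : ℂ, 1 < s.re → G s * zR R s = 1

end St

/-- `ζ_R` is `ζ_F` up to an entire factor -/
def Link (R : Type) [CommRing R] [Dt R] (F : Type) [Field F] [NumberField F] : Prop :=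
  ∃ E : ℂ → ℂ, Differentiable ℂ E ∧ ∀ s : ℂ, 1 < s.re → zR R s = E s * NumberField.dedekindZeta F s

end Crest.Agent.R27.Ab
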