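import Crest.Agent.R26.Iface

/-!
# Row 27 (Artin's primitive root conjecture): arithmetic part.  Owner of this file: lead.

`StKum` (power residues; from a zero-free half plane for `ζ_{ℚ(a^{1/q})}`) and `StMain27`
(primes `p = r₀ D q' + 1`, from the type II estimate of row 26) give S0037.
-/

set_option autoImplicit false

namespace Crest.Agent.R27

open Finset Filter Crest.Agent.R26
open scoped Classical

/-- few primes `p ≡ 1 (mod q)` have `a` as a `q`-th power residue -/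
def StKum : Prop := ∀ a : ℤ, a ≠ -1 → ¬ IsSquare a → ∃ (θ C : ℝ) (q₀ : ℕ), θ < 1 ∧ 0 < C ∧
  ∀ q : ℕ, q.Prime → q₀ ≤ q → ∀ X : ℕ, 2 ≤ X →
    ∑ p ∈ (Icc 1 X).filter
        (fun p : ℕ => p.Prime ∧ q ∣ p - 1 ∧ ((a : ℤ) : ZMod p) ^ ((p - 1) / q) = 1), Real.log p ≤
      C * ((X : ℝ) / (q : ℝ) ^ 2 + (X : ℝ) ^ θ * (q : ℝ) ^ C)

/-- many primes `y = r₀ D n + 1 ≡ r₀ c + 1 (mod r₀ W)` with `n` prime and `D` a mark -/
def StMain27 : Prop := ∃ K : ℕ, 1 ≤ K ∧ ∀ r₀ W c : ℕ, 1 ≤ W → 2 ∣ r₀ → 1 ≤ r₀ → Nat.Coprime c W →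
  Nat.Coprime (r₀ * c + 1) W → ∃ κ : ℝ, 0 < κ ∧ ∀ᶠ x : ℝ in atTop,
    κ * Vtot (grp K x) * x ≤
      ∑ p ∈ Dvec (grp K x), ∑ n ∈ (Icc 1 ⌊x⌋₊).filter (fun n =>
          x / 2 < ((r₀ * pv p * n + 1 : ℕ) : ℝ) ∧ ((r₀ * pv p * n + 1 : ℕ) : ℝ) ≤ x ∧
            pv p * n ≡ c [MOD W]),
        ArithmeticFunction.vonMangoldt n * ArithmeticFunction.vonMangoldt (r₀ * pv p * n + 1)

end Crest.Agent.R27
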