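import Crest.Agent.R26.Main
import Crest.Agent.R27.Fin.Main
import Crest.Agent.R27.M.Main
import Crest.Agent.R27.Ku.Main
import Crest.Agent.R27.Rec.Main
import Crest.Agent.R27.Po.Main
import Crest.Agent.R27.G.Inst
import Crest.Agent.R27.E.Inst
import Crest.Agent.R27.F.Main
import Crest.Agent.R27.Z.Ext

/-! Row 27: final assembly (owner helper12). -/

set_option autoImplicit false

namespace Crest.Agent.R27

open Crest.Agent.R26

theorem main27 : StMain27 := stMain27 (stII stMaj (stMin stReg stOpCrude (stOpGood stClean))) stZmu stAP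

theorem stAn_of (hM : ∀ [Z.Bd], Ab.StF Z.O → Z.StM) : StAn := fun R _ _ _ _ hT =>
  letI : Z.Bd := ⟨R⟩
  Z.stZF_of (hM (F.stF hT (Ab.stE R)))

theorem final27 (hT : StLv → StThetaM) (hM : ∀ [Z.Bd], Ab.StF Z.O → Z.StM) (a : ℤ) (ha : a ≠ -1) (hsq : ¬ IsSquare a) :
    ∃ c : ℝ, 0 < c ∧ ∃ x₀ : ℝ, 2 ≤ x₀ ∧ ∀ x : ℝ, x₀ ≤ x →
      c * x / Real.log x ^ 2 ≤
        (Set.ncard {p : ℕ | p.Prime ∧ x < (p : ℝ) ∧ (p : ℝ) < 2 * x ∧ ¬ ((p : ℤ) ∣ a) ∧
          orderOf ((a : ℤ) : ZMod p) = p - 1} : ℝ) :=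
  s37 (stKum_of (stZFK_of stSec stAr stPois (hT (stLv Rec.stRec)) (stAn_of hM))) main27 a ha hsq

end Crest.Agent.R27
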