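import Crest.Agent.R27.Abs
import Crest.Agent.R27.G.Loc
import Crest.Agent.R27.Ku.Defs

/-!
# Row 27, part A: the model of the abstract structure and the final assembly (owner helper12).
-/

set_option autoImplicit false

namespace Crest.Agent.R27

open Crest.NumberTheoryR.EisensteinField G
open scoped NumberField

section
variable {F : Type} [Field F] [NumberField F] [Algebra K3 F] (v : Lv F)

/-- the data attached to a level `v` and a system `P` of generators -/
@[reducible] noncomputable def G.Lv.dt (P : Submonoid v.R) : Ab.Dt v.R where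
  pr := P
  eQ y c := v.psi ((y : F) / (c : F))
  sx := v.sx
  al := v.al
  C := v.Gq
  cls n := v.cl (n : F)

/-- `P` contains exactly one generator of each nonzero ideal -/
structure G.Lv.Gen (P : Submonoid v.R) : Prop where
  ne : ∀ n ∈ P, n ≠ 0
  ex : ∀ a : v.R, a ≠ 0 → ∃ n ∈ P, Associated a n
  uniq : ∀ m ∈ P, ∀ n ∈ P, Associated m n → m = n

/-- ... and the classes of `P` lie in a subgroup meeting the classes of the units trivially -/
structure G.Lv.Sec (P : Submonoid v.R) : Prop extends v.Gen P where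
  cpl : ∃ E' : Subgroup v.Gq, Disjoint E' v.E ∧ ∀ n ∈ P, v.cl (n : F) ∈ E'

end

/-- LEVEL (helper19; uses `StRec`) -/
def StLv : Prop := ∀ (F : Type) [Field F] [NumberField F] [Algebra K3 F] (m : ℕ), 0 < m → ∃ v : Lv F, m ∣ v.M

/-- SECTION (helper19) -/
def StSec : Prop := ∀ (F : Type) [Field F] [NumberField F] [Algebra K3 F] (v : Lv F), ∃ P, v.Sec P

/-- ARITHMETIC (helper19) -/
def StAr : Prop := ∀ (F : Type) [Field F] [NumberField F] [Algebra K3 F] (v : Lv F) (P : Submonoid v.R),
  v.Gen P → ∃ A : Ab.Ar v.R, A.toDt = v.dt P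

/-- POISSON, COUNT, LINK (helper12) -/
def StPois : Prop := ∀ (F : Type) [Field F] [NumberField F] [Algebra K3 F] (v : Lv F) (P : Submonoid v.R),
  v.Gen P → (∃ W w₀, @Ab.IsW v.R _ (v.dt P) W w₀) ∧ @Ab.Count v.R _ (v.dt P) ∧ @Ab.Link v.R _ (v.dt P) F _ _

/-- THETA in the model (helper14; may use `StLv` to choose a level with many primes) -/
def StThetaM : Prop := ∀ (F : Type) [Field F] [NumberField F] [Algebra K3 F], ∃ v : Lv F,
  ∀ P : Submonoid v.R, v.Sec P → @Ab.StTheta v.R _ (v.dt P)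

/-- the abstract analytic part: E (helper57), F (helper72), MAIN (helper11) -/
def StAn : Prop := ∀ (R : Type) [CommRing R] [IsDomain R] [IsPrincipalIdealRing R] [Ab.Abs R],
  Ab.StTheta R → Ab.StZF R

theorem stZFK_of (hS : StSec) (hA : StAr) (hP : StPois) (hT : StThetaM) (hM : StAn) : StZFK := by
  refine ⟨11 / 12, by norm_num, fun F _ _ hω => ?_⟩
  obtain ⟨ω, hω⟩ := hω
  have hprim : IsPrimitiveRoot ω 3 := by
    have h3 : ω ^ 3 = 1 := by linear_combination (ω - 1) * hω
    have h1 : ω ≠ 1 := by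
      rintro rfl
      norm_num at hω
    haveI : Fact (Nat.Prime 3) := ⟨Nat.prime_three⟩
    have := orderOf_eq_prime h3 h1
    exact this ▸ IsPrimitiveRoot.orderOf ω
  let φ : K3 →ₐ[ℚ] F :=
    ((IsCyclotomicExtension.zeta_spec 3 ℚ K3).embeddingsEquivPrimitiveRoots F
      (Polynomial.cyclotomic.irreducible_rat (by norm_num))).symm
      ⟨ω, (mem_primitiveRoots (by norm_num)).2 hprim⟩
  letI : Algebra K3 F := φ.toRingHom.toAlgebra
  obtain ⟨v, hv⟩ := hT F
  obtain ⟨P, hP'⟩ := hS F v
  obtain ⟨A, hA'⟩ := hA F v P hP'.toGen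
  obtain ⟨⟨W, w₀, hW⟩, hC, E, hE, hL⟩ := hP F v P hP'.toGen
  have hth := hv P hP'
  rw [← hA'] at hW hC hL hth
  letI B : Ab.Abs v.R := { A with W := W, w₀ := w₀, isW := hW, count := hC }
  obtain ⟨G, hG, hG'⟩ := hM v.R hth
  refine ⟨fun s => G s * E s, hG.mul hE.differentiableOn, fun s hs => ?_⟩
  rw [mul_assoc, ← hL s hs]
  exact hG' s hs

end Crest.Agent.R27
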