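import Crest.Agent.R17.A.All

/-!
Row 27: the sextic residue symbol on ideals (owner helper68).

Setting: `A` a Dedekind domain, finite free over `ℤ`, with `[Algebra O A]` (`O = ℤ[ω]` of row 17).  For a number field
use `[Field F] [NumberField F] [Algebra K3 F]`, `A = 𝓞 F`; then `algebraMap O (𝓞 F) om` is the cube root of unity.
`sI u I = (u / I)₆ ∈ ℂ` (zero unless `I` is coprime to `6 u`), `sE u n = (u / n)₆`; the cubic symbol is `sI u I ^ 2`,
the quadratic one `sI u I ^ 3`.  `Cp I u` says that the ideal `I` is coprime to the element `u`.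
The reciprocity law is `Crest.Agent.R27.StRec` (proved in `R27/Rec/Main.lean`).
-/

set_option autoImplicit false

namespace Crest.Agent.R27

open Crest.Agent.R17 Crest.NumberTheoryR.EisensteinField UniqueFactorizationMonoid
open scoped ComplexConjugate Classical NumberField

section
variable {A : Type*} [CommRing A]

/-- the ideal `I` is coprime to the element `u` -/
def Cp (I : Ideal A) (u : A) : Prop := IsCoprime I (Ideal.span {u})

theorem cp_span {n u : A} : Cp (Ideal.span {n}) u ↔ IsCoprime n u := Ideal.isCoprime_span_singleton_iff n u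

theorem cp_iff {I : Ideal A} {u : A} : Cp I u ↔ ∃ v, u * v - 1 ∈ I := by
  rw [Cp, Ideal.isCoprime_iff_exists]
  constructor
  · rintro ⟨i, hi, j, hj, h⟩
    obtain ⟨v, rfl⟩ := Ideal.mem_span_singleton'.1 hj
    refine ⟨v, ?_⟩
    rw [show u * v - 1 = -i by linear_combination h]
    exact I.neg_mem hi
  · rintro ⟨v, hv⟩
    exact ⟨-(u * v - 1), I.neg_mem hv, u * v, Ideal.mul_mem_right _ _ (Ideal.mem_span_singleton_self u),
      by ring⟩

theorem cp_iff_isUnit {I : Ideal A} {u : A} : Cp I u ↔ IsUnit (Ideal.Quotient.mk I u) := by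
  rw [cp_iff, isUnit_iff_exists_inv]
  constructor
  · rintro ⟨v, hv⟩
    exact ⟨Ideal.Quotient.mk I v, by rw [← map_mul, ← map_one (Ideal.Quotient.mk I), Ideal.Quotient.eq]; exact hv⟩
  · rintro ⟨v, hv⟩
    obtain ⟨v, rfl⟩ := Ideal.Quotient.mk_surjective v
    exact ⟨v, by rwa [← map_mul, ← map_one (Ideal.Quotient.mk I), Ideal.Quotient.eq] at hv⟩

theorem cp_mul_left {I J : Ideal A} {u : A} : Cp (I * J) u ↔ Cp I u ∧ Cp J u := by
  exact IsCoprime.mul_left_iff

theorem cp_mul_right {I : Ideal A} {u v : A} : Cp I (u * v) ↔ Cp I u ∧ Cp I v := by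
  simp only [cp_iff_isUnit, map_mul, IsUnit.mul_iff]

theorem cp_max {P : Ideal A} (hP : P.IsMaximal) {u : A} : Cp P u ↔ u ∉ P := by
  rw [cp_iff]
  constructor
  · rintro ⟨v, hv⟩ hu
    refine hP.ne_top ((Ideal.eq_top_iff_one P).2 ?_)
    have := P.sub_mem (P.mul_mem_right v hu) hv
    rwa [sub_sub_cancel] at this
  · intro hu
    obtain ⟨v, i, hi, h⟩ := hP.exists_inv hu
    refine ⟨v, ?_⟩
    rw [show u * v - 1 = -i by linear_combination h]
    exact P.neg_mem hi

theorem Cp.congr {I : Ideal A} {u v : A} (h : Cp I u) (huv : u - v ∈ I) : Cp I v := by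
  rw [cp_iff_isUnit] at h ⊢
  rwa [← Ideal.Quotient.eq.2 huv]

theorem Cp.pow {I : Ideal A} {u : A} (h : Cp I u) (k : ℕ) : Cp I (u ^ k) := by
  rw [cp_iff_isUnit] at h ⊢
  rw [map_pow]
  exact h.pow k

end

variable {A : Type*} [CommRing A] [IsDedekindDomain A] [Module.Free ℤ A] [Module.Finite ℤ A] [Algebra O A]

/-- the symbol modulo a prime ideal -/
noncomputable def sP (u : A) (P : Ideal A) : ℂ :=
  if (6 : A) ∈ P then 0 else
    ∑ j ∈ Finset.range 6, if u ^ ((Ideal.absNorm P - 1) / 6) - algebraMap O A zt ^ j ∈ P then sg zt ^ j else 0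

/-- the sextic residue symbol `(u / I)₆` -/
noncomputable def sI (u : A) (I : Ideal A) : ℂ :=
  if I = ⊥ then 0 else ((normalizedFactors I).map (sP u)).prod

/-- the sextic residue symbol `(u / n)₆` -/
noncomputable abbrev sE (u n : A) : ℂ := sI u (Ideal.span {n})

/-- Sextic reciprocity with all supplements: for `a ≡ 1 (mod 6^k)` and `(b) = J J₆` with `J` coprime to `6` and
`J₆ ∣ 6^∞` one has `(b / a)₆ = (a / J)₆`. -/
def StRec : Prop := ∀ (F : Type) [Field F] [NumberField F] [Algebra K3 F], ∃ k : ℕ, 1 ≤ k ∧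
  ∀ (a b : 𝓞 F) (J J₆ : Ideal (𝓞 F)) (m : ℕ), (6 : 𝓞 F) ^ k ∣ a - 1 → b ≠ 0 → Ideal.span {b} = J * J₆ →
    Cp J 6 → (6 : 𝓞 F) ^ m ∈ J₆ → sE b a = sI a J

@[simp] theorem sI_bot (u : A) : sI u ⊥ = 0 := by
  rw [sI, if_pos rfl]

@[simp] theorem sI_top (u : A) : sI u ⊤ = 1 := by
  rw [sI, if_neg top_ne_bot, ← Ideal.one_eq_top, normalizedFactors_one, Multiset.map_zero,
    Multiset.prod_zero]

theorem sI_prime {P : Ideal A} (hP : Prime P) (u : A) : sI u P = sP u P := by
  rw [sI, if_neg (show P ≠ ⊥ from hP.ne_zero), normalizedFactors_irreducible hP.irreducible, normalize_eq,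
    Multiset.map_singleton, Multiset.prod_singleton]

theorem sI_mul_right (u : A) (I J : Ideal A) : sI u (I * J) = sI u I * sI u J := by
  by_cases hI : I = ⊥
  · simp [hI]
  by_cases hJ : J = ⊥
  · simp [hJ]
  rw [sI, sI, sI, if_neg hI, if_neg hJ, if_neg (show I * J ≠ ⊥ from mul_ne_zero hI hJ),
    normalizedFactors_mul hI hJ,
    Multiset.map_add, Multiset.prod_add]

theorem sI_pow_right (u : A) (I : Ideal A) (k : ℕ) : sI u (I ^ k) = sI u I ^ k := by
  induction k with
  | zero => simp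
  | succ k ih => rw [pow_succ, sI_mul_right, ih, pow_succ]

theorem sE_mul_right (u m n : A) : sE u (m * n) = sE u m * sE u n := by
  rw [sE, ← Ideal.span_singleton_mul_span_singleton, sI_mul_right]

theorem sE_unit_right (u : A) {n : A} (h : IsUnit n) : sE u n = 1 := by
  rw [sE, Ideal.span_singleton_eq_top.2 h, sI_top]

theorem Cp.ne_bot {I : Ideal A} (h : Cp I 6) : I ≠ ⊥ := by
  rintro rfl
  obtain ⟨v, hv⟩ := cp_iff.1 h
  have h1 : IsUnit (algebraMap ℤ A 6) := by
    rw [map_ofNat]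
    exact IsUnit.of_mul_eq_one v (sub_eq_zero.1 (Ideal.mem_bot.1 hv))
  have h2 : IsUnit (6 : ℤ) := isUnit_of_map_unit (algebraMap ℤ A) 6 h1
  rw [Int.isUnit_iff] at h2
  omega

theorem syma_prime_mod_six {P : Ideal A} (hP : Prime P) (h : Cp P 6) : Ideal.absNorm P % 6 = 1 := by
  have hP0 : P ≠ ⊥ := hP.ne_zero
  have hm : P.IsMaximal := (Ideal.isPrime_of_prime hP).isMaximal hP0
  have : Finite (A ⧸ P) := Ideal.finiteQuotientOfFreeOfNeBot P hP0
  let : Fintype (A ⧸ P) := Fintype.ofFinite _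
  let : Field (A ⧸ P) := Ideal.Quotient.field P
  have hc : Ideal.absNorm P = Fintype.card (A ⧸ P) := by
    rw [Ideal.absNorm_apply, Submodule.cardQuot_apply, Nat.card_eq_fintype_card]
  have h6 : (6 : A ⧸ P) ≠ 0 := by
    have := (cp_iff_isUnit.1 h).ne_zero
    rwa [map_ofNat] at this
  set x : A ⧸ P := Ideal.Quotient.mk P (algebraMap O A zt) with hx
  have x2 : x ^ 2 = x - 1 := by
    rw [hx, ← map_pow, ← map_pow, sya_zt_sq, map_sub, map_sub, map_one, map_one]
  have x6 : x ^ 6 = 1 := by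
    rw [hx, ← map_pow, ← map_pow, zt_pow_six, map_one, map_one]
  have x0 : x ≠ 0 := by
    intro h0
    rw [h0] at x6
    simp at x6
  have hq := FiniteField.pow_card_sub_one_eq_one x x0
  rw [pow_eq_pow_mod _ x6] at hq
  have hq1 : 1 < Fintype.card (A ⧸ P) := Fintype.one_lt_card
  have hr : (Fintype.card (A ⧸ P) - 1) % 6 < 6 := Nat.mod_lt _ (by norm_num)
  suffices (Fintype.card (A ⧸ P) - 1) % 6 = 0 by omega
  generalize (Fintype.card (A ⧸ P) - 1) % 6 = r at hq hr
  interval_cases r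
  · rfl
  · exact absurd (by linear_combination (6 : A ⧸ P) * x2 - 6 * x * hq) h6
  · exact absurd (by linear_combination (2 * x + 4) * x2 - (2 * x + 2) * hq) h6
  · exact absurd (by linear_combination (3 * x + 3) * x2 - 3 * hq) h6
  · exact absurd (by
      linear_combination (2 - (2 * x - 4) * (x ^ 2 + x)) * x2 + (2 * x - 4) * hq) h6
  · exact absurd (by linear_combination x2 + x * (x * hq - x6)) (one_ne_zero (α := A ⧸ P))

theorem absNorm_mod_six {I : Ideal A} (h : Cp I 6) : Ideal.absNorm I % 6 = 1 := by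
  induction I using UniqueFactorizationMonoid.induction_on_prime with
  | h₁ => exact absurd rfl h.ne_bot
  | h₂ I hI => rw [Ideal.isUnit_iff.1 hI, Ideal.absNorm_top]
  | h₃ I P _ hP ih =>
    obtain ⟨h1, h2⟩ := cp_mul_left.1 h
    rw [map_mul, Nat.mul_mod, syma_prime_mod_six hP h1, ih h2]

theorem symb_inj {P : Ideal O} (h6 : (6 : O) ∉ P) {i j : ℕ} (h : zt ^ i - zt ^ j ∈ P) :
    zt ^ i = zt ^ j := by
  have e1 : zt ^ j * zt ^ (5 * j) = 1 := by
    rw [← pow_add, show j + 5 * j = 6 * j by ring, pow_mul, zt_pow_six, one_pow]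
  have e2 : (zt ^ i * zt ^ (5 * j)) ^ 6 = 1 := by
    rw [← pow_add, ← pow_mul, mul_comm, pow_mul, zt_pow_six, one_pow]
  have e3 : zt ^ i * zt ^ (5 * j) - 1 ∈ P := by
    rw [← e1, ← sub_mul]; exact P.mul_mem_right _ h
  by_cases hx : zt ^ i * zt ^ (5 * j) = 1
  · linear_combination zt ^ j * hx - zt ^ i * e1
  · exfalso
    generalize zt ^ i * zt ^ (5 * j) = x at e2 e3 hx
    have e4 : (x - 1) * (x ^ 5 + x ^ 4 + x ^ 3 + x ^ 2 + x + 1) = 0 := by linear_combination e2
    have e5 := (mul_eq_zero.1 e4).resolve_left (sub_ne_zero.2 hx)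
    have e6 : (6 : O) = (x - 1) * -(x ^ 4 + 2 * x ^ 3 + 3 * x ^ 2 + 4 * x + 5) := by
      linear_combination e5
    exact h6 (e6 ▸ P.mul_mem_right _ e3)

omit [Module.Free ℤ A] [Module.Finite ℤ A] [Algebra O A] in
theorem symb_max {P : Ideal A} (hP : Prime P) : P.IsMaximal :=
  (Ideal.isPrime_of_prime hP).isMaximal hP.ne_zero

omit [Algebra O A] in
theorem symb_fermat {P : Ideal A} (hP : Prime P) {u : A} (hu : u ∉ P) :
    u ^ (Ideal.absNorm P - 1) - 1 ∈ P := by
  have hf := Ideal.finiteQuotientOfFreeOfNeBot P hP.ne_zero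
  have hm := symb_max hP
  let _ := Ideal.Quotient.field P
  let _ := Fintype.ofFinite (A ⧸ P)
  have h1 : Ideal.Quotient.mk P u ≠ 0 := fun h => hu (Ideal.Quotient.eq_zero_iff_mem.1 h)
  have h2 := FiniteField.pow_card_sub_one_eq_one _ h1
  rw [← Nat.card_eq_fintype_card] at h2
  rw [← Ideal.Quotient.eq, map_pow, map_one, Ideal.absNorm_apply, Submodule.cardQuot_apply]
  exact h2

omit [IsDedekindDomain A] [Module.Free ℤ A] [Module.Finite ℤ A] in
theorem symb_factor (a : A) : a ^ 6 - 1 = ∏ j ∈ Finset.range 6, (a - algebraMap O A zt ^ j) := by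
  have hz : algebraMap O A zt ^ 2 = algebraMap O A zt - 1 := by
    rw [← map_pow, sya_zt_sq, map_sub, map_one]
  generalize algebraMap O A zt = z at hz
  have h3 : z ^ 3 = -1 := by linear_combination (z + 1) * hz
  have h4 : z ^ 4 = -z := by linear_combination z * h3
  have h5 : z ^ 5 = 1 - z := by linear_combination z * h4 - hz
  simp only [Finset.prod_range_succ, Finset.prod_range_zero, h4, h5, h3, hz, pow_zero, pow_one]
  have h1 : (a - z) * (a + z) = a ^ 2 - z + 1 := by linear_combination -hz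
  have h2 : (a - (z - 1)) * (a + (z - 1)) = a ^ 2 + z := by linear_combination -hz
  have h3 : (a ^ 2 - z + 1) * (a ^ 2 + z) = a ^ 4 + a ^ 2 + 1 := by linear_combination -hz
  calc a ^ 6 - 1 = (a ^ 2 - 1) * (a ^ 4 + a ^ 2 + 1) := by ring
    _ = (a ^ 2 - 1) * (((a - z) * (a + z)) * ((a - (z - 1)) * (a + (z - 1)))) := by
      rw [h1, h2, h3]
    _ = _ := by ring

theorem symb_six {P : Ideal A} (hP : Prime P) (h6 : ¬ Cp P 6) (u : A) : sI u P = 0 := by
  rw [sI_prime hP, sP, if_pos (not_not.1 ((cp_max (symb_max hP)).not.1 h6))]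

/-- characterisation at a prime -/
theorem sI_eq_of_mem {P : Ideal A} (hP : Prime P) (h6 : Cp P 6) {u : A} {j : ℕ}
    (h : u ^ ((Ideal.absNorm P - 1) / 6) - algebraMap O A zt ^ j ∈ P) : sI u P = sg zt ^ j := by
  have hj : zt ^ j = zt ^ (j % 6) := pow_eq_pow_mod j zt_pow_six
  have hj6 : j % 6 < 6 := Nat.mod_lt _ (by norm_num)
  have h6' : (6 : A) ∉ P := (cp_max (symb_max hP)).1 h6
  have e1 : algebraMap O A zt ^ (j % 6) = algebraMap O A zt ^ j := by rw [← map_pow, ← hj, map_pow]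
  have e2 : sg zt ^ (j % 6) = sg zt ^ j := by rw [← map_pow, ← hj, map_pow]
  rw [sI_prime hP, sP, if_neg h6', Finset.sum_eq_single (j % 6), e1, if_pos h, e2]
  · intro i hi hij
    refine if_neg fun h' => hij (zt_pow_inj (Finset.mem_range.1 hi) hj6 ?_)
    rw [← hj]
    refine symb_inj (P := P.comap (algebraMap O A)) (fun h0 => h6' ?_) ?_
    · simpa [map_ofNat] using Ideal.mem_comap.1 h0
    · have := P.sub_mem h h'
      rw [sub_sub_sub_cancel_left] at this
      rwa [Ideal.mem_comap, map_sub, map_pow, map_pow]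
  · intro h'
    exact absurd (Finset.mem_range.2 hj6) h' 

theorem exists_sI_mem {P : Ideal A} (hP : Prime P) (h6 : Cp P 6) {u : A} (hu : u ∉ P) :
    ∃ j < 6, u ^ ((Ideal.absNorm P - 1) / 6) - algebraMap O A zt ^ j ∈ P ∧ sI u P = sg zt ^ j := by
  have h := symb_fermat hP hu
  have e : (Ideal.absNorm P - 1) / 6 * 6 = Ideal.absNorm P - 1 := by
    have := absNorm_mod_six h6
    omega
  rw [← e, pow_mul, symb_factor] at h
  obtain ⟨j, hj, h⟩ := (Ideal.isPrime_of_prime hP).prod_mem_iff.1 h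
  exact ⟨j, Finset.mem_range.1 hj, h, sI_eq_of_mem hP h6 h⟩

theorem sI_prime_eq_zero {P : Ideal A} (hP : Prime P) {u : A} (hu : u ∈ P) : sI u P = 0 := by
  by_cases h6 : Cp P 6
  · have h0 : (Ideal.absNorm P - 1) / 6 ≠ 0 := by
      have h1 := absNorm_mod_six h6
      have h2 : Ideal.absNorm P ≠ 1 := fun h => (symb_max hP).ne_top (Ideal.absNorm_eq_one_iff.1 h)
      omega
    rw [sI_prime hP, sP]
    split_ifs
    · rfl
    refine Finset.sum_eq_zero fun j _ => if_neg fun h' => (symb_max hP).ne_top ?_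
    have := P.sub_mem (P.pow_mem_of_mem hu _ (Nat.pos_of_ne_zero h0)) h'
    rw [sub_sub_cancel] at this
    exact Ideal.eq_top_of_isUnit_mem _ this ((isUnit_zt.map _).pow j)
  · exact symb_six hP h6 u

theorem sI_mul_left (u v : A) (I : Ideal A) : sI (u * v) I = sI u I * sI v I := by
  induction I using UniqueFactorizationMonoid.induction_on_prime with
  | h₁ => simp
  | h₂ I hI => simp [Ideal.isUnit_iff.1 hI]
  | h₃ I P _ hP ih =>
    have key : sI (u * v) P = sI u P * sI v P := by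
      by_cases h6 : Cp P 6
      swap
      · simp [symb_six hP h6]
      by_cases hu : u ∈ P
      · rw [sI_prime_eq_zero hP hu, sI_prime_eq_zero hP (P.mul_mem_right v hu), zero_mul]
      by_cases hv : v ∈ P
      · rw [sI_prime_eq_zero hP hv, sI_prime_eq_zero hP (P.mul_mem_left u hv), mul_zero]
      obtain ⟨i, -, hi, hi'⟩ := exists_sI_mem hP h6 hu
      obtain ⟨j, -, hj, hj'⟩ := exists_sI_mem hP h6 hv
      rw [hi', hj', ← pow_add]
      refine sI_eq_of_mem hP h6 ?_
      rw [mul_pow, pow_add]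
      generalize u ^ ((Ideal.absNorm P - 1) / 6) = a at hi
      generalize v ^ ((Ideal.absNorm P - 1) / 6) = b at hj
      generalize algebraMap O A zt ^ i = x at hi
      generalize algebraMap O A zt ^ j = y at hj
      rw [show a * b - x * y = (a - x) * b + x * (b - y) by ring]
      exact P.add_mem (P.mul_mem_right _ hi) (P.mul_mem_left _ hj)
    rw [sI_mul_right, sI_mul_right, sI_mul_right, ih, key]
    ring

theorem sI_one_left (I : Ideal A) : sI 1 I = if Cp I 6 then 1 else 0 := by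
  induction I using UniqueFactorizationMonoid.induction_on_prime with
  | h₁ => rw [if_neg fun h => h.ne_bot rfl]; exact sI_bot 1
  | h₂ I hI => rw [Ideal.isUnit_iff.1 hI, sI_top, if_pos (cp_iff.2 ⟨0, Submodule.mem_top⟩)]
  | h₃ I P _ hP ih =>
    rw [sI_mul_right, ih]
    by_cases h6 : Cp P 6
    · rw [sI_eq_of_mem hP h6 (j := 0) (by simp), pow_zero, one_mul]
      simp only [cp_mul_left, h6, true_and]
    · rw [symb_six hP h6, zero_mul, if_neg fun h => h6 (cp_mul_left.1 h).1]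

theorem sI_pow_left (u : A) {I : Ideal A} (h : Cp I 6) (k : ℕ) : sI (u ^ k) I = sI u I ^ k := by
  induction k with
  | zero => rw [pow_zero, pow_zero, sI_one_left, if_pos h]
  | succ k ih => rw [pow_succ, sI_mul_left, ih, pow_succ]

theorem sI_congr_rad {u v : A} {I : Ideal A} (h : ∀ P : Ideal A, Prime P → P ∣ I → u - v ∈ P) :
    sI u I = sI v I := by
  induction I using UniqueFactorizationMonoid.induction_on_prime with
  | h₁ => simp
  | h₂ I hI => simp [Ideal.isUnit_iff.1 hI]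
  | h₃ I P _ hP ih =>
    rw [sI_mul_right, sI_mul_right, ih fun Q hQ hd => h Q hQ (hd.mul_left P), sI_prime hP, sI_prime hP]
    congr 1
    have h1 := h P hP (dvd_mul_right P I)
    have h2 : ∀ k : ℕ, u ^ k - v ^ k ∈ P := fun k =>
      Ideal.mem_of_dvd _ (sub_dvd_pow_sub_pow u v k) h1
    unfold sP
    refine if_congr Iff.rfl rfl (Finset.sum_congr rfl fun j _ => if_congr ?_ rfl rfl)
    rw [← sub_add_sub_cancel _ (v ^ ((Ideal.absNorm P - 1) / 6))]
    exact P.add_mem_iff_right (h2 _)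

theorem sI_congr {u v : A} {I : Ideal A} (h : u - v ∈ I) : sI u I = sI v I := by
  exact sI_congr_rad fun P _ hd => Ideal.le_of_dvd hd h

theorem sI_ne_zero {u : A} {I : Ideal A} : sI u I ≠ 0 ↔ Cp I 6 ∧ Cp I u := by
  induction I using UniqueFactorizationMonoid.induction_on_prime with
  | h₁ => exact iff_of_false (fun h => h (sI_bot u)) fun h => h.1.ne_bot rfl
  | h₂ I hI =>
    rw [Ideal.isUnit_iff.1 hI, sI_top]
    exact iff_of_true one_ne_zero ⟨cp_iff.2 ⟨0, Submodule.mem_top⟩, cp_iff.2 ⟨0, Submodule.mem_top⟩⟩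
  | h₃ I P _ hP ih =>
    have key : sI u P ≠ 0 ↔ Cp P 6 ∧ Cp P u := by
      refine ⟨fun h => ⟨by_contra fun h6 => h (symb_six hP h6 u),
        (cp_max (symb_max hP)).2 fun hu => h (sI_prime_eq_zero hP hu)⟩, fun ⟨h6, hu⟩ => ?_⟩
      obtain ⟨j, -, -, hj⟩ := exists_sI_mem hP h6 ((cp_max (symb_max hP)).1 hu)
      rw [hj]
      exact pow_ne_zero _ sya_sg_ne
    rw [sI_mul_right, mul_ne_zero_iff, ih, key, cp_mul_left, cp_mul_left]
    tauto

theorem sI_eq_pow {u : A} {I : Ideal A} (h6 : Cp I 6) (h : Cp I u) : ∃ j < 6, sI u I = sg zt ^ j := by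
  suffices ∃ j, sI u I = sg zt ^ j by
    obtain ⟨j, hj⟩ := this
    exact ⟨j % 6, Nat.mod_lt _ (by norm_num), hj.trans (pow_eq_pow_mod j sya_sg_six)⟩
  induction I using UniqueFactorizationMonoid.induction_on_prime with
  | h₁ => exact absurd rfl h6.ne_bot
  | h₂ I hI => exact ⟨0, by rw [Ideal.isUnit_iff.1 hI, sI_top, pow_zero]⟩
  | h₃ I P _ hP ih =>
    obtain ⟨i, hi⟩ := ih (cp_mul_left.1 h6).2 (cp_mul_left.1 h).2
    obtain ⟨j, -, -, hj⟩ := exists_sI_mem hP (cp_mul_left.1 h6).1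
      ((cp_max ((Ideal.isPrime_of_prime hP).isMaximal hP.ne_zero)).1 (cp_mul_left.1 h).1)
    exact ⟨j + i, by rw [sI_mul_right, hi, hj, pow_add]⟩

theorem sI_pow_six (u : A) (I : Ideal A) : sI u I ^ 6 = if Cp I 6 ∧ Cp I u then 1 else 0 := by
  split_ifs with h
  · obtain ⟨j, -, hj⟩ := sI_eq_pow h.1 h.2
    rw [hj, ← pow_mul, mul_comm, pow_mul, sya_sg_six, one_pow]
  · rw [not_not.1 (sI_ne_zero.not.2 h)]
    norm_num

theorem norm_sI (u : A) (I : Ideal A) : ‖sI u I‖ = if Cp I 6 ∧ Cp I u then 1 else 0 := by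
  split_ifs with h
  · obtain ⟨j, -, hj⟩ := sI_eq_pow h.1 h.2
    rw [hj, norm_pow, norm_sg, nm_unit isUnit_zt, Real.sqrt_one, one_pow]
  · rw [not_not.1 (sI_ne_zero.not.2 h), norm_zero]

theorem norm_sI_le (u : A) (I : Ideal A) : ‖sI u I‖ ≤ 1 := by
  rw [norm_sI]
  split_ifs <;> norm_num

theorem syc_conj (u : A) (I : Ideal A) : conj (sI u I) = sI u I ^ 5 := by
  by_cases h : sI u I = 0
  · simp [h]
  · obtain ⟨j, -, hj⟩ := sI_eq_pow (sI_ne_zero.1 h).1 (sI_ne_zero.1 h).2
    rw [hj, map_pow, ← sg_cj, cj_zt, map_pow, ← pow_mul, ← pow_mul, mul_comm]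

theorem sI_mul_conj (u : A) (I : Ideal A) : sI u I * conj (sI u I) = if Cp I 6 ∧ Cp I u then 1 else 0 := by
  rw [syc_conj, ← pow_succ', sI_pow_six]

theorem conj_sI (u : A) (I : Ideal A) : conj (sI u I) = sI u I ^ 5 := by
  exact syc_conj u I

theorem sI_zt {I : Ideal A} (h : Cp I 6) : sI (algebraMap O A zt) I = sg zt ^ ((Ideal.absNorm I - 1) / 6) := by
  induction I using UniqueFactorizationMonoid.induction_on_prime with
  | h₁ => exact absurd rfl h.ne_bot
  | h₂ I hI => rw [Ideal.isUnit_iff.1 hI, sI_top, Ideal.absNorm_top, pow_zero]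
  | h₃ I P _ hP ih =>
    have h1 := absNorm_mod_six (cp_mul_left.1 h).1
    have h2 := absNorm_mod_six (cp_mul_left.1 h).2
    rw [sI_mul_right, ih (cp_mul_left.1 h).2,
      sI_eq_of_mem hP (cp_mul_left.1 h).1 (j := (Ideal.absNorm P - 1) / 6) (by simp), map_mul, ← pow_add]
    obtain ⟨s, hs⟩ : ∃ s, Ideal.absNorm P = 6 * s + 1 := ⟨Ideal.absNorm P / 6, by omega⟩
    obtain ⟨t, ht⟩ : ∃ t, Ideal.absNorm I = 6 * t + 1 := ⟨Ideal.absNorm I / 6, by omega⟩
    have e : (6 * s + 1) * (6 * t + 1) = 6 * (6 * (s * t) + (s + t)) + 1 := by ring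
    rw [hs, ht, e]
    simp only [Nat.add_sub_cancel, Nat.mul_div_cancel_left _ (show 0 < 6 by norm_num)]
    rw [pow_add _ (6 * _), pow_mul, sya_sg_six, one_pow, one_mul]

theorem sI_neg_one {I : Ideal A} (h : Cp I 6) : sI (-1) I = (-1) ^ ((Ideal.absNorm I - 1) / 2) := by
  have h1 := absNorm_mod_six h
  have s3 : sg zt ^ 3 = -1 := by rw [← map_pow, zt_cube, map_neg, map_one]
  have e : (-1 : A) = algebraMap O A zt ^ 3 := by rw [← map_pow, zt_cube, map_neg, map_one]
  rw [e, sI_pow_left _ h, sI_zt h, ← pow_mul, mul_comm, pow_mul, s3,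
    show (Ideal.absNorm I - 1) / 2 = 3 * ((Ideal.absNorm I - 1) / 6) by omega, pow_mul]
  norm_num

/-- the symbol modulo a prime has exact order six -/
theorem exists_sI_eq_zt {P : Ideal A} (hP : Prime P) (h6 : Cp P 6) : ∃ u, sI u P = sg zt := by
  have : P.IsMaximal := (Ideal.isPrime_of_prime hP).isMaximal hP.ne_zero
  let : Field (A ⧸ P) := Ideal.Quotient.field _
  have : Finite (A ⧸ P) := Ideal.finiteQuotientOfFreeOfNeBot P hP.ne_zero
  have h1 := absNorm_mod_six h6
  have hexp : (Ideal.absNorm P - 1) / 6 * 6 = Ideal.absNorm P - 1 := by omega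
  obtain ⟨g, hg⟩ := IsCyclic.exists_monoid_generator (α := (A ⧸ P)ˣ)
  have ho := orderOf_eq_card_of_forall_mem_powers hg
  rw [Nat.card_units, ← Submodule.cardQuot_apply, ← Ideal.absNorm_apply, ← hexp] at ho
  obtain ⟨k, hk⟩ := hg ((isUnit_zt.map (algebraMap O A)).map (Ideal.Quotient.mk P)).unit
  have hk' : (g : A ⧸ P) ^ k = Ideal.Quotient.mk _ (algebraMap O A zt) := by
    rw [← Units.val_pow_eq_pow_val]
    exact congrArg Units.val hk
  have h1 : g ^ (k * 6) = 1 := Units.ext (by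
    rw [Units.val_pow_eq_pow_val, pow_mul, hk', ← map_pow, ← map_pow, zt_pow_six, map_one, map_one, Units.val_one])
  rw [← orderOf_dvd_iff_pow_eq_one, ho] at h1
  obtain ⟨m, rfl⟩ := Nat.dvd_of_mul_dvd_mul_right (by norm_num) h1
  obtain ⟨u, hu⟩ := Ideal.Quotient.mk_surjective ((g : A ⧸ P) ^ m)
  refine ⟨u, (sI_eq_of_mem hP h6 (j := 1) ?_).trans (pow_one _)⟩
  rw [← Ideal.Quotient.eq_zero_iff_mem, map_sub, map_pow, hu, ← pow_mul, mul_comm, hk', pow_one, sub_self]

/-- comparison with row 17 -/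
theorem sE_eq_sx (u n : O) : sE u n = sx u n := by
  induction n using UniqueFactorizationMonoid.induction_on_prime with
  | h₁ => rw [sE, Ideal.span_singleton_eq_bot.2 rfl, sI_bot, sx_zero_right]
  | h₂ n hn => rw [sE_unit_right u hn, sx_unit_right u hn]
  | h₃ n p _ hp ih =>
    rw [sE_mul_right, sx_mul_right, ih]
    congr 1
    rw [sE, sI_prime (Ideal.prime_span_singleton_iff.2 hp), sP]
    split_ifs with h6
    · exact (sya_six hp (fun hc => hp.coprime_iff_not_dvd.1 hc (Ideal.mem_span_singleton.1 h6)) u).symm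
    · rw [sx_prime hp, sxp]
      refine Finset.sum_congr rfl fun j _ => ?_
      rw [map_pow sg]
      exact if_congr Ideal.mem_span_singleton rfl rfl

end Crest.Agent.R27
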